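import Claimed.Agent.R122.Crux

/-!
# Row 122: elementary facts on `classSum`
-/

set_option autoImplicit false

namespace Claimed.Agent.R122

universe u

variable {G : Type u} [Group G]

theorem mapDomain_mk_apply (a : MonoidAlgebra ℂ G) (g : G) :
    Finsupp.mapDomain ConjClasses.mk a.coeff (ConjClasses.mk g) = classSum g a := by
  classical
  unfold classSum
  simp only [Finsupp.mapDomain, Finsupp.sum_apply, Finsupp.single_apply]
  apply Finset.sum_congr rfl
  intro h _
  dsimp only
  by_cases hc : IsConj h g
  · rw [if_pos (ConjClasses.mk_eq_mk_iff_isConj.mpr hc), if_pos hc]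
  · rw [if_neg (mt ConjClasses.mk_eq_mk_iff_isConj.mp hc), if_neg hc]

theorem classSum_one (a : MonoidAlgebra ℂ G) : classSum 1 a = a.coeff 1 := by
  classical
  unfold classSum
  simp only [isConj_one_left]
  rw [Finsupp.sum, Finset.sum_ite_eq' a.coeff.support 1 (fun h => a.coeff h)]
  split_ifs with h
  · rfl
  · exact (Finsupp.notMem_support_iff.mp h).symm

/-- If all class sums away from `1` vanish, the sum of all coefficients is the coefficient at `1`. -/
theorem sum_coeff_eq_coeff_one (a : MonoidAlgebra ℂ G)
    (h : ∀ g : G, g ≠ 1 → classSum g a = 0) :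
    (a.coeff.sum fun _ z => z) = a.coeff 1 := by
  classical
  have h1 : Finsupp.mapDomain ConjClasses.mk a.coeff
      = Finsupp.single (ConjClasses.mk (1 : G)) (a.coeff 1) := by
    ext c
    obtain ⟨g, rfl⟩ := ConjClasses.mk_surjective c
    rw [mapDomain_mk_apply]
    by_cases hg : g = 1
    · subst hg
      rw [classSum_one, Finsupp.single_eq_same]
    · rw [h g hg, Finsupp.single_eq_of_ne]
      intro hh
      exact hg (isConj_one_left.mp (ConjClasses.mk_eq_mk_iff_isConj.mp hh))
  have h2 := Finsupp.sum_mapDomain_index_addMonoidHom (f := (ConjClasses.mk : G → ConjClasses G))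
    (s := a.coeff) (fun _ => AddMonoidHom.id ℂ)
  simp only [AddMonoidHom.id_apply] at h2
  rw [← h2, h1, Finsupp.sum_single_index rfl]

theorem weakCrux_of_crux (hC : Crux.{u}) : WeakCrux.{u} := by
  intro G _ hG n e he
  apply sum_coeff_eq_coeff_one
  intro g hg
  exact hC G n e he g (fun h => hg (hG g h))

end Claimed.Agent.R122
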