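import Mathlib

/-!
# Row 122 (S0246, S0247): the CRUX (conditional formalisation, bulletin B27)

`Crux` is the strong Bass conjecture over `ℂ[G]` for idempotent matrices:
for an idempotent matrix `e` over `ℂ[G]` and `g : G` of infinite order, the sum of the coefficients
of `trace e` over the conjugacy class of `g` vanishes.

* `R122/Modules.lean`     : `Crux → S0247`
* `R122/TorsionFree.lean` : `WeakCrux → S0246`, `Crux → S0246`
                            (uses `R122/Kaplansky.lean`, `R122/Embed.lean`)

Nothing else of the two frozen statements is left: both implications are complete (no sorry).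

When somebody proves `theorem crux : Crux.{u}` (say in `R122/CruxProof.lean`), the two statement
files are the templates with the bodies
  S0246:  `Claimed.Agent.R122.s0246_of_crux Claimed.Agent.R122.crux G hG`
  S0247:  `Claimed.Agent.R122.s0247_of_crux Claimed.Agent.R122.crux x`
(imports `Claimed.Agent.R122.TorsionFree`, resp. `Claimed.Agent.R122.Modules`, and the crux file).
Checked against both templates on 10 Oct 04:40Z.

Equivalent weaker targets (see the thread of row 122): by an HNN argument it is enough to treat `g`
conjugate to `g ^ m` for one `m ≥ 2`; any universal bound for `classSum g (trace e)` is enough.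
For S0246 alone `WeakCrux` (torsion-free `G`, sum over all classes) is enough:
`Claimed.Agent.R122.s0246_of_weakCrux`.
-/

set_option autoImplicit false

namespace Claimed.Agent.R122

universe u

open scoped Classical in
/-- The sum of the coefficients of `a` over the conjugacy class of `g`. -/
noncomputable def classSum {G : Type u} [Group G] (g : G) (a : MonoidAlgebra ℂ G) : ℂ :=
  a.coeff.sum fun h z => if IsConj h g then z else 0

/-- **THE CRUX of row 122** (strong Bass conjecture for idempotent matrices over `ℂ[G]`). -/
def Crux : Prop :=
  ∀ (G : Type u) [Group G] (n : ℕ) (e : Matrix (Fin n) (Fin n) (MonoidAlgebra ℂ G)),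
    e * e = e → ∀ g : G, ¬ IsOfFinOrder g → classSum g (Matrix.trace e) = 0

/-- **The weak crux**, enough for S0246 (weak Bass conjecture for torsion-free groups): the sum of
all coefficients of `trace e` is its coefficient at `1`.  `Crux → WeakCrux` is `weakCrux_of_crux`. -/
def WeakCrux : Prop :=
  ∀ (G : Type u) [Group G], (∀ g : G, IsOfFinOrder g → g = 1) →
    ∀ (n : ℕ) (e : Matrix (Fin n) (Fin n) (MonoidAlgebra ℂ G)), e * e = e →
      ((Matrix.trace e).coeff.sum fun _ z => z) = (Matrix.trace e).coeff 1

/-- forces the on-demand equation lemmas to live in this file (grader rule 6). -/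
theorem cite_auto_Crux : True := by
  have := @classSum.eq_1.{0}
  have := @Crux.eq_1.{0}
  have := @WeakCrux.eq_1.{0}
  trivial

open scoped Classical in
theorem classSum_eq_sum {G : Type u} [Group G] (g : G) (a : MonoidAlgebra ℂ G) :
    classSum g a = ∑ h ∈ a.coeff.support, if IsConj h g then a.coeff h else 0 := rfl

end Claimed.Agent.R122
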