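import Mathlib

/-!
# Row 122: operators on `ℓ²(G)`

Copy (new namespace, unused parts removed) of the generic layer `R186/Ell2.lean` written by helper489
for row 186: permutation unitaries, left/right regular representation, the trace on the commutant of
the right regular representation.  Copied, not imported, so that row 122 does not depend on the
module names of a packed row.
-/

set_option autoImplicit false

namespace Claimed.Agent.R122.Ell2

open scoped InnerProductSpace ENNReal
open Filter Topology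

universe u

/-- `ℓ²(G)` -/
abbrev L2 (G : Type u) : Type u := lp (fun _ : G => ℂ) 2

section SetLevel

variable {G : Type u}

lemma two_toReal_pos : 0 < (2 : ℝ≥0∞).toReal := by norm_num

lemma memℓp_comp (σ : Equiv.Perm G) (x : L2 G) : Memℓp (fun g => x (σ g)) 2 := by
  have h := lp.memℓp x
  rw [memℓp_gen_iff two_toReal_pos] at h ⊢
  exact (σ.summable_iff (f := fun g => ‖x g‖ ^ (2 : ℝ≥0∞).toReal)).2 h

/-- linear map underlying `perm` -/
noncomputable def permLin (σ : Equiv.Perm G) : L2 G →ₗ[ℂ] L2 G where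
  toFun x := ⟨fun g => x (σ.symm g), memℓp_comp σ.symm x⟩
  map_add' x y := by ext g; rfl
  map_smul' c x := by ext g; rfl

lemma permLin_apply (σ : Equiv.Perm G) (x : L2 G) (g : G) : permLin σ x g = x (σ.symm g) := rfl

lemma permLin_inner (σ : Equiv.Perm G) (x y : L2 G) :
    ⟪permLin σ x, permLin σ y⟫_ℂ = ⟪x, y⟫_ℂ := by
  rw [lp.inner_eq_tsum, lp.inner_eq_tsum]
  exact σ.symm.tsum_eq (fun g => ⟪x g, y g⟫_ℂ)

/-- The unitary of `ℓ²(G)` induced by a permutation: `(perm σ x) g = x (σ⁻¹ g)`,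
`perm σ δ_g = δ_{σ g}`. -/
noncomputable def perm (σ : Equiv.Perm G) : L2 G →L[ℂ] L2 G :=
  ((permLin σ).isometryOfInner (permLin_inner σ)).toContinuousLinearMap

@[simp] lemma perm_apply (σ : Equiv.Perm G) (x : L2 G) (g : G) : perm σ x g = x (σ.symm g) := rfl

lemma perm_inner (σ : Equiv.Perm G) (x y : L2 G) : ⟪perm σ x, perm σ y⟫_ℂ = ⟪x, y⟫_ℂ :=
  permLin_inner σ x y

lemma perm_mul (σ τ : Equiv.Perm G) : perm σ * perm τ = perm (σ * τ) := by
  ext x g; rfl

@[simp] lemma perm_one : perm (1 : Equiv.Perm G) = 1 := by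
  ext x g; rfl

lemma star_perm (σ : Equiv.Perm G) : star (perm σ) = perm σ⁻¹ := by
  rw [ContinuousLinearMap.star_eq_adjoint]
  symm
  rw [ContinuousLinearMap.eq_adjoint_iff]
  intro x y
  have h := perm_inner σ (perm σ⁻¹ x) y
  have h2 : perm σ (perm σ⁻¹ x) = x := by
    have := congrArg (fun T : L2 G →L[ℂ] L2 G => T x) (perm_mul σ σ⁻¹)
    simpa using this
  rw [h2] at h
  exact h.symm

lemma perm_unitary (σ : Equiv.Perm G) : perm σ ∈ unitary (L2 G →L[ℂ] L2 G) := by
  rw [Unitary.mem_iff, star_perm, perm_mul, perm_mul]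
  simp

lemma norm_perm_apply (σ : Equiv.Perm G) (x : L2 G) : ‖perm σ x‖ = ‖x‖ :=
  ((permLin σ).isometryOfInner (permLin_inner σ)).norm_map x

open Classical in
/-- the basis vector `δ_g` -/
noncomputable def δ (g : G) : L2 G := lp.single 2 g (1 : ℂ)

open Classical in
lemma δ_apply (g h : G) : δ g h = if h = g then 1 else 0 := by
  unfold δ
  rw [lp.single_apply]
  by_cases hh : h = g
  · subst hh; simp
  · simp [hh]

@[simp] lemma δ_apply_self (g : G) : δ g g = 1 := by simp [δ_apply]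

lemma δ_apply_ne {g h : G} (hh : h ≠ g) : δ g h = 0 := by simp [δ_apply, hh]

lemma inner_δ_left (g : G) (x : L2 G) : ⟪δ g, x⟫_ℂ = x g := by
  classical
  unfold δ
  rw [lp.inner_single_left]
  simp

lemma inner_δ_right (g : G) (x : L2 G) : ⟪x, δ g⟫_ℂ = star (x g) := by
  rw [← inner_conj_symm, inner_δ_left]; rfl

@[simp] lemma norm_δ (g : G) : ‖δ g‖ = 1 := by
  classical
  unfold δ
  rw [lp.norm_single (by norm_num)]
  simp

lemma perm_δ (σ : Equiv.Perm G) (g : G) : perm σ (δ g) = δ (σ g) := by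
  ext h
  rw [perm_apply, δ_apply, δ_apply]
  by_cases hh : h = σ g
  · subst hh; simp
  · rw [if_neg hh, if_neg]
    intro h'
    exact hh (by rw [← h']; simp)

/-- Operators on `ℓ²(G)` agreeing on all `δ_g` are equal. -/
lemma op_ext {F : Type*} [NormedAddCommGroup F] [NormedSpace ℂ F] {S T : L2 G →L[ℂ] F}
    (h : ∀ g, S (δ g) = T (δ g)) : S = T := by
  classical
  refine lp.ext_continuousLinearMap (by norm_num) (fun g => ?_)
  ext
  simpa [δ] using h g

/-- Operators with the same matrix coefficients are equal. -/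
lemma op_ext_matrix {S T : L2 G →L[ℂ] L2 G} (h : ∀ g k, S (δ g) k = T (δ g) k) : S = T :=
  op_ext (fun g => by ext k; exact h g k)

end SetLevel

section GroupLevel

variable {G : Type u} [Group G]

/-- left regular representation: `lam g δ_h = δ_{gh}` -/
noncomputable def lam (g : G) : L2 G →L[ℂ] L2 G := perm (Equiv.mulLeft g)

/-- right regular representation: `rho g δ_h = δ_{h g⁻¹}` -/
noncomputable def rho (g : G) : L2 G →L[ℂ] L2 G := perm (Equiv.mulRight g⁻¹)

lemma lam_apply (g : G) (x : L2 G) (h : G) : lam g x h = x (g⁻¹ * h) := rfl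

lemma rho_apply (g : G) (x : L2 G) (h : G) : rho g x h = x (h * g) := by
  simp [rho]

lemma lam_δ (g h : G) : lam g (δ h) = δ (g * h) := perm_δ _ _

lemma rho_δ (g h : G) : rho g (δ h) = δ (h * g⁻¹) := perm_δ _ _

lemma lam_mul (g h : G) : lam g * lam h = lam (g * h) := by
  ext x k
  simp [lam_apply, mul_assoc]

@[simp] lemma lam_one : lam (1 : G) = 1 := by
  ext x k
  simp [lam_apply]

lemma star_lam (g : G) : star (lam g) = lam g⁻¹ := by
  rw [lam, star_perm]
  ext x k
  simp [lam_apply]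

lemma lam_unitary (g : G) : lam g ∈ unitary (L2 G →L[ℂ] L2 G) := perm_unitary _

lemma rho_mul (g h : G) : rho g * rho h = rho (g * h) := by
  ext x k
  simp [rho_apply, mul_assoc]

@[simp] lemma rho_one : rho (1 : G) = 1 := by
  ext x k
  simp [rho_apply]

lemma star_rho (g : G) : star (rho g) = rho g⁻¹ := by
  rw [rho, star_perm]
  ext x k
  simp [rho_apply]

lemma lam_rho_comm (g h : G) : lam g * rho h = rho h * lam g := by
  ext x k
  simp [rho_apply, lam_apply, mul_assoc]

/-- the trace vector -/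
noncomputable def Om : L2 G := δ 1

lemma rho_Om (g : G) : rho g (Om : L2 G) = δ g⁻¹ := by
  rw [Om, rho_δ, one_mul]

/-- matrix coefficients of an operator commuting with `rho` -/
lemma apply_δ_apply {a : L2 G →L[ℂ] L2 G} (ha : ∀ g, a * rho g = rho g * a) (g k : G) :
    a (δ g) k = a Om (k * g⁻¹) := by
  have h1 : δ g = rho g⁻¹ (Om : L2 G) := by rw [rho_Om, inv_inv]
  have h2 : a (rho g⁻¹ Om) = rho g⁻¹ (a Om) :=
    congrArg (fun T : L2 G →L[ℂ] L2 G => T Om) (ha g⁻¹)
  rw [h1, h2, rho_apply]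

/-- `Om` is separating. -/
lemma eq_zero_of_apply_Om {a : L2 G →L[ℂ] L2 G} (ha : ∀ g, a * rho g = rho g * a)
    (h : a Om = 0) : a = 0 := by
  refine op_ext_matrix (fun g k => ?_)
  rw [apply_δ_apply ha, h]; rfl

/-- the trace -/
noncomputable def tr (a : L2 G →L[ℂ] L2 G) : ℂ := ⟪(Om : L2 G), a Om⟫_ℂ

lemma tr_eq (a : L2 G →L[ℂ] L2 G) : tr a = a Om 1 := inner_δ_left _ _

lemma star_apply_Om {a : L2 G →L[ℂ] L2 G} (ha : ∀ g, a * rho g = rho g * a) (g : G) :
    (star a) Om g = star (a Om g⁻¹) := by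
  rw [← inner_δ_left, ContinuousLinearMap.star_eq_adjoint, ContinuousLinearMap.adjoint_inner_right,
    Om, inner_δ_right, apply_δ_apply ha, one_mul]
  rfl

lemma tr_mul_eq_tsum {a : L2 G →L[ℂ] L2 G} (ha : ∀ g, a * rho g = rho g * a)
    (b : L2 G →L[ℂ] L2 G) : tr (a * b) = ∑' g, a Om g⁻¹ * b Om g := by
  have h1 : tr (a * b) = ⟪(star a) Om, b Om⟫_ℂ := by
    rw [tr, mul_apply_eq_comp, ContinuousLinearMap.star_eq_adjoint,
      ContinuousLinearMap.adjoint_inner_left]
  rw [h1, lp.inner_eq_tsum]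
  congr 1
  ext g
  rw [star_apply_Om ha]
  simp [mul_comm]

/-- `tr` is a trace on the commutant of `rho`. -/
lemma tr_comm {a b : L2 G →L[ℂ] L2 G} (ha : ∀ g, a * rho g = rho g * a)
    (hb : ∀ g, b * rho g = rho g * b) : tr (a * b) = tr (b * a) := by
  rw [tr_mul_eq_tsum ha, tr_mul_eq_tsum hb]
  rw [← (Equiv.inv G).tsum_eq]
  congr 1
  ext g
  simp [mul_comm]

end GroupLevel


/-- forces the on-demand equation lemmas to live in this file (grader rule 6). -/
theorem cite_auto_Ell2 : True := by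
  have := @permLin.eq_1.{0}
  have := @perm.eq_1.{0}
  have := @δ.eq_1.{0}
  have := @lam.eq_1.{0}
  have := @rho.eq_1.{0}
  have := @Om.eq_1.{0}
  have := @tr.eq_1.{0}
  trivial

end Claimed.Agent.R122.Ell2
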