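import Mathlib

/-!
# Row 122: finitely many elements of a domain of characteristic zero live in a subring of `ℂ`
-/

set_option autoImplicit false

namespace Claimed.Agent.R122

open Cardinal

/-- A field of characteristic zero of cardinality at most the continuum embeds into `ℂ`. -/
theorem exists_ringHom_complex (K : Type) [Field K] [CharZero K] (hK : #K ≤ 𝔠) :
    Nonempty (K →+* ℂ) := by
  let F := FractionRing (MvPolynomial ℝ K)
  let L := AlgebraicClosure F
  have h1 : #(MvPolynomial ℝ K) = 𝔠 := by
    rw [MvPolynomial.cardinalMk_eq_max, mk_real]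
    simp [hK, aleph0_le_continuum]
  have h2 : #F = 𝔠 := by rw [FractionRing.cardinalMk, h1]
  have h3 : #L = 𝔠 := by
    apply le_antisymm
    · have := Algebra.IsAlgebraic.cardinalMk_le_max F L
      simpa [h2, aleph0_le_continuum] using this
    · rw [← h2]
      exact mk_le_of_injective (algebraMap F L).injective
  let j : K →+* L := (algebraMap F L).comp
    ((algebraMap (MvPolynomial ℝ K) F).comp (MvPolynomial.C : K →+* MvPolynomial ℝ K))
  have : CharZero L := charZero_of_injective_ringHom j.injective
  obtain ⟨e⟩ := IsAlgClosed.ringEquiv_of_equiv_of_charZero (K := L) (L := ℂ)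
    (by rw [h3]; exact aleph0_lt_continuum) (Cardinal.eq.1 (by rw [h3, mk_complex]))
  exact ⟨e.toRingHom.comp j⟩

universe v

/-- Finitely many elements of a domain of characteristic zero lie in the image of a ring `A`
which also embeds into `ℂ`. -/
theorem exists_embedding {R : Type v} [CommRing R] [IsDomain R] [CharZero R] (s : Finset R) :
    ∃ (A : Type) (_ : CommRing A) (ι : A →+* R) (φ : A →+* ℂ),
      Function.Injective ι ∧ Function.Injective φ ∧ ∀ x ∈ s, x ∈ Set.range ι := by
  classical
  let f : MvPolynomial (Fin s.card) ℤ →+* R :=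
    (MvPolynomial.aeval (R := ℤ) (fun i => ((s.equivFin.symm i : s) : R))).toRingHom
  let A := MvPolynomial (Fin s.card) ℤ ⧸ RingHom.ker f
  let ι : A →+* R := RingHom.kerLift f
  have hι : Function.Injective ι := RingHom.kerLift_injective f
  have : IsDomain A := hι.isDomain ι
  have : CharZero A := by
    refine ⟨fun m n hmn => ?_⟩
    have := congrArg ι hmn
    simpa using this
  have hA : #A ≤ ℵ₀ := by
    have h0 : #(MvPolynomial (Fin s.card) ℤ) ≤ ℵ₀ := by
      refine MvPolynomial.cardinalMk_le_max.trans ?_
      simp
    exact (mk_le_of_surjective (Ideal.Quotient.mk_surjective (I := RingHom.ker f))).trans h0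
  have hK : #(FractionRing A) ≤ 𝔠 := by
    rw [FractionRing.cardinalMk]
    exact hA.trans aleph0_le_continuum
  obtain ⟨ψ⟩ := exists_ringHom_complex (FractionRing A) hK
  refine ⟨A, inferInstance, ι, ψ.comp (algebraMap A (FractionRing A)), hι,
    ψ.injective.comp (IsFractionRing.injective A (FractionRing A)), ?_⟩
  intro x hx
  refine ⟨Ideal.Quotient.mk _ (MvPolynomial.X (s.equivFin ⟨x, hx⟩)), ?_⟩
  change f (MvPolynomial.X (s.equivFin ⟨x, hx⟩)) = x
  simp [f]

end Claimed.Agent.R122
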