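import Claimed.Agent.R122.Ell2

/-!
# Row 122: Kaplansky's theorem

An idempotent `e` of `ℂ[G]` whose coefficient at `1` vanishes is `0`.

Proof.  `E = Lam e` is an idempotent operator on `ℓ²(G)` commuting with the right regular
representation; `K = ker (1 - E)` is its (closed) range, `P` the orthogonal projection onto `K`.  `P` commutes
with the right regular representation, `E P = P`, `P E = E`, hence
`e(1) = tr E = tr (P E) = tr (E P) = tr P = ‖P δ_1‖²`.  So `P δ_1 = 0`, `P = 0`, `E = P E = 0`, `e = 0`.
-/

set_option autoImplicit false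

namespace Claimed.Agent.R122

open Ell2
open scoped InnerProductSpace

universe u

variable {G : Type u} [Group G]

/-- the left regular representation as a monoid homomorphism -/
noncomputable def lamHom (G : Type u) [Group G] : G →* (L2 G →L[ℂ] L2 G) where
  toFun := lam
  map_one' := lam_one
  map_mul' g h := (lam_mul g h).symm

/-- the left regular representation of `ℂ[G]` on `ℓ²(G)` -/
noncomputable def Lam (G : Type u) [Group G] : MonoidAlgebra ℂ G →ₐ[ℂ] (L2 G →L[ℂ] L2 G) :=
  MonoidAlgebra.lift ℂ (L2 G →L[ℂ] L2 G) G (lamHom G)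

/-- forces the on-demand equation lemmas to live in this file (grader rule 6). -/
theorem cite_auto_Kaplansky : True := by
  have := @lamHom.eq_1.{0}
  have := @Lam.eq_1.{0}
  trivial

theorem Lam_single (g : G) (z : ℂ) : Lam G (MonoidAlgebra.single g z) = z • lam g := by
  simp [Lam, lamHom]

theorem Lam_rho_comm (a : MonoidAlgebra ℂ G) (g : G) : Lam G a * rho g = rho g * Lam G a := by
  induction a using MonoidAlgebra.induction_linear with
  | zero => simp
  | add x y hx hy => simp only [map_add, add_mul, mul_add, hx, hy]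
  | single h z =>
    rw [Lam_single, smul_mul_assoc, mul_smul_comm, lam_rho_comm]

theorem Lam_apply_Om (a : MonoidAlgebra ℂ G) (k : G) : Lam G a Om k = a.coeff k := by
  induction a using MonoidAlgebra.induction_linear with
  | zero => simp
  | add x y hx hy =>
    rw [map_add, add_apply, lp.coeFn_add, Pi.add_apply, hx, hy,
      MonoidAlgebra.coeff_add, Finsupp.add_apply]
  | single h z =>
    classical
    rw [Lam_single, smul_apply, Om, lam_δ, mul_one, lp.coeFn_smul,
      Pi.smul_apply, δ_apply, MonoidAlgebra.coeff_single, Finsupp.single_apply]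
    by_cases hk : h = k
    · subst hk; simp
    · rw [if_neg hk, if_neg (fun h' => hk h'.symm)]; simp

theorem tr_Lam (a : MonoidAlgebra ℂ G) : tr (Lam G a) = a.coeff 1 := by
  rw [tr_eq, Lam_apply_Om]

theorem Lam_injective : Function.Injective (Lam G) := by
  intro a b hab
  apply MonoidAlgebra.coeff_injective
  ext k
  rw [← Lam_apply_Om, ← Lam_apply_Om, hab]

/-- **Kaplansky.** An idempotent of `ℂ[G]` with vanishing coefficient at `1` is zero. -/
theorem kaplansky_zero (e : MonoidAlgebra ℂ G) (he : e * e = e) (h1 : e.coeff 1 = 0) : e = 0 := by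
  set E : L2 G →L[ℂ] L2 G := Lam G e with hE
  have hEE : E * E = E := by rw [hE, ← map_mul, he]
  have hEr : ∀ g, E * rho g = rho g * E := fun g => Lam_rho_comm e g
  let K : Submodule ℂ (L2 G) := (1 - E : L2 G →L[ℂ] L2 G).ker
  have hKmem : ∀ x, x ∈ K ↔ E x = x := by
    intro x
    change (1 - E : L2 G →L[ℂ] L2 G) x = 0 ↔ _
    rw [sub_apply, one_apply_eq_self, sub_eq_zero, eq_comm]
  have hKcl : IsClosed (K : Set (L2 G)) := ContinuousLinearMap.isClosed_ker _
  have : CompleteSpace K := hKcl.completeSpace_coe
  set P : L2 G →L[ℂ] L2 G := K.starProjection with hP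
  have hEP : E * P = P := by
    ext1 x
    exact (hKmem _).1 (K.starProjection_apply_mem x)
  have hEmem : ∀ x, E x ∈ K := fun x => (hKmem _).2
    (congrArg (fun T : L2 G →L[ℂ] L2 G => T x) hEE)
  have hPE : P * E = E := by
    ext1 x
    exact Submodule.starProjection_eq_self_iff.2 (hEmem x)
  have hrK : ∀ g x, x ∈ K → rho g x ∈ K := by
    intro g x hx
    rw [hKmem] at hx ⊢
    have := congrArg (fun T : L2 G →L[ℂ] L2 G => T x) (hEr g)
    simp only [mul_apply_eq_comp] at this
    rw [this, hx]
  have hPr : ∀ g, P * rho g = rho g * P := by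
    intro g
    ext1 x
    change K.starProjection (rho g x) = rho g (K.starProjection x)
    apply Submodule.eq_starProjection_of_mem_of_inner_eq_zero
      (hrK g _ (K.starProjection_apply_mem x))
    intro w hw
    have hw' : w = rho g (rho g⁻¹ w) := by
      have := congrArg (fun T : L2 G →L[ℂ] L2 G => T w) (rho_mul g g⁻¹)
      simpa using this.symm
    rw [← map_sub, hw', rho, perm_inner]
    exact K.starProjection_inner_eq_zero x _ (hrK g⁻¹ w hw)
  have htr : tr P = 0 := by
    calc tr P = tr (E * P) := by rw [hEP]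
      _ = tr (P * E) := tr_comm hEr hPr
      _ = tr E := by rw [hPE]
      _ = 0 := by rw [hE, tr_Lam, h1]
  have hPOm : P Om = 0 := by
    have h2 : ⟪P Om, P Om⟫_ℂ = 0 := by
      have h3 : ⟪P Om, P Om⟫_ℂ = ⟪(Om : L2 G), P (P Om)⟫_ℂ :=
        K.inner_starProjection_left_eq_right _ _
      have h4 : P (P Om) = P Om :=
        Submodule.starProjection_eq_self_iff.2 (K.starProjection_apply_mem _)
      rw [h3, h4]
      exact htr
    exact inner_self_eq_zero.1 h2
  have hP0 : P = 0 := eq_zero_of_apply_Om hPr hPOm
  have hE0 : E = 0 := by rw [← hPE, hP0, zero_mul]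
  apply Lam_injective
  rw [map_zero]
  exact hE0

end Claimed.Agent.R122
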