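import Claimed.Prelude.Def_0211
import Claimed.Agent.R122.Crux

/-!
# Row 122: `Crux → S0247`
-/

set_option autoImplicit false

namespace Claimed.Agent.R122

open Claims.C0211 Claims.C0211.BassTrace

universe u v

theorem classTrace_mk {G : Type u} [Group G] (a : MonoidAlgebra ℂ G) (g : G) :
    K0.classTrace a (ConjClasses.mk g) = classSum g a := by
  classical
  unfold K0.classTrace classSum
  simp only [Finsupp.mapDomain, Finsupp.sum_apply, Finsupp.single_apply]
  apply Finset.sum_congr rfl
  intro h _
  dsimp only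
  by_cases hc : IsConj h g
  · rw [if_pos (ConjClasses.mk_eq_mk_iff_isConj.mpr hc), if_pos hc]
  · rw [if_neg (mt ConjClasses.mk_eq_mk_iff_isConj.mp hc), if_neg hc]

theorem rawTrace_mk_eq_zero (hC : Crux.{u}) {G : Type u} [Group G]
    (z : FreeAbelianGroup (K0.Idempotent (MonoidAlgebra ℂ G))) (g : G) (hg : ¬ IsOfFinOrder g) :
    K0.rawTrace z (ConjClasses.mk g) = 0 := by
  induction z using FreeAbelianGroup.induction_on with
  | zero => simp only [map_zero, Finsupp.zero_apply]
  | of e =>
    simp only [K0.rawTrace, FreeAbelianGroup.lift_apply_of]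
    rw [classTrace_mk]
    exact hC G e.size e.matrix e.idem g hg
  | neg e he => simp only [map_neg, Finsupp.neg_apply, he, neg_zero]
  | add x y hx hy => simp only [map_add, Finsupp.add_apply, hx, hy, add_zero]

theorem K0_HattoriStallings_mk_eq_zero (hC : Crux.{u}) {G : Type u} [Group G]
    (y : K0.Group (MonoidAlgebra ℂ G)) (g : G) (hg : ¬ IsOfFinOrder g) :
    K0.HattoriStallings y (ConjClasses.mk g) = 0 := by
  obtain ⟨z, rfl⟩ := QuotientAddGroup.mk_surjective y
  exact rawTrace_mk_eq_zero hC z g hg

/-- **`Crux → S0247`.** -/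
theorem s0247_of_crux (hC : Crux.{u}) {G : Type u} [Group G]
    (x : RightProjective.ModuleK0.{u,v} (MonoidAlgebra ℂ G)) :
    (∀ g : G, ¬IsOfFinOrder g → RightProjective.HattoriStallings x (ConjClasses.mk g) = 0) ∧
      ↑(RightProjective.HattoriStallings x).support ⊆
        {c | ∃ g : G, IsOfFinOrder g ∧ ConjClasses.mk g = c} := by
  have h1 : ∀ g : G, ¬IsOfFinOrder g →
      RightProjective.HattoriStallings x (ConjClasses.mk g) = 0 := fun g hg =>
    K0_HattoriStallings_mk_eq_zero hC (RightProjective.presentation x) g hg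
  refine ⟨h1, ?_⟩
  intro c hc
  obtain ⟨g, rfl⟩ := ConjClasses.mk_surjective c
  refine ⟨g, ?_, rfl⟩
  by_contra hg
  exact (Finsupp.mem_support_iff.mp hc) (h1 g hg)

end Claimed.Agent.R122
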