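import Claimed.Prelude.Def_0210
import Claimed.Agent.R122.ClassSum
import Claimed.Agent.R122.Kaplansky
import Claimed.Agent.R122.Embed

/-!
# Row 122: `WeakCrux → S0246` (hence `Crux → S0246`)
-/

set_option autoImplicit false

namespace Claimed.Agent.R122

open Claims.C0210 Claims.C0210.TorsionFreeBass

universe u v

variable {G : Type u} [Group G]

theorem classCoefficient_eq (g : G) (a : MonoidAlgebra ℂ G) :
    BassTrace.classCoefficient g a = classSum g a := rfl

theorem augmentation_eq_sum (a : MonoidAlgebra ℂ G) :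
    augmentation a = a.coeff.sum fun _ z => z := by
  change MonoidAlgebra.lift ℂ ℂ G (1 : G →* ℂ) a = _
  rw [MonoidAlgebra.lift_apply]
  simp

/-- weak Bass for torsion-free groups -/
theorem coeff_one_eq_augmentation (hC : WeakCrux.{u}) (hG : TorsionFree G) {n : ℕ}
    (e : Matrix (Fin n) (Fin n) (MonoidAlgebra ℂ G)) (he : e * e = e) :
    (Matrix.trace e).coeff 1 = augmentation (Matrix.trace e) := by
  rw [augmentation_eq_sum]
  exact (hC G hG n e he).symm

theorem matrixTrace_eq {n : ℕ} (e : Matrix (Fin n) (Fin n) (MonoidAlgebra ℂ G)) :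
    matrixTrace e = (Matrix.trace e).coeff 1 := by
  simp [matrixTrace, canonicalTrace, Matrix.trace, MonoidAlgebra.coeff_sum,
    Finsupp.finsetSum_apply]

theorem matrixTrace_eq_rank (hC : WeakCrux.{u}) (hG : TorsionFree G) {n : ℕ}
    (e : Matrix (Fin n) (Fin n) (MonoidAlgebra ℂ G)) (he : e * e = e) :
    matrixTrace e = ((augmentedMatrix e).rank : ℂ) := by
  rw [matrixTrace_eq, coeff_one_eq_augmentation hC hG e he, ← augmentedMatrix_trace,
    idempotent_matrix_trace_eq_rank]
  rw [← augmentedMatrix_mul, he]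

theorem rawCoefficient_one_eq (hC : WeakCrux.{u}) (hG : TorsionFree G)
    (z : FreeAbelianGroup (BassTrace.K0.Idempotent (MonoidAlgebra ℂ G))) :
    BassTrace.K0.rawCoefficient (1 : G) z = ((rawAugmentationRank z : ℤ) : ℂ) := by
  induction z using FreeAbelianGroup.induction_on with
  | zero => simp only [map_zero, Int.cast_zero]
  | of e =>
    rw [rawAugmentationRank_of, ← coeff_one_eq_augmentation hC hG e.matrix e.idem]
    simp only [BassTrace.K0.rawCoefficient, FreeAbelianGroup.lift_apply_of]
    rw [classCoefficient_eq, classSum_one]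
  | neg e he => simp only [map_neg, Int.cast_neg, he]
  | add x y hx hy => simp only [map_add, Int.cast_add, hx, hy]

theorem traceK0_eq (hC : WeakCrux.{u}) (hG : TorsionFree G) :
    traceK0 (G := G) = (Int.castAddHom ℂ).comp augmentationRank := by
  apply AddMonoidHom.ext
  intro y
  obtain ⟨z, rfl⟩ := QuotientAddGroup.mk_surjective y
  exact rawCoefficient_one_eq hC hG z

/-- the class of the free module of rank one -/
noncomputable def oneIdem (G : Type u) [Group G] :
    BassTrace.K0.Idempotent (MonoidAlgebra ℂ G) where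
  size := 1
  matrix := 1
  idem := by simp

theorem cite_auto_TorsionFree : True := by
  have := @oneIdem.eq_1.{0}
  trivial

theorem traceK0_oneIdem :
    traceK0 (G := G) (QuotientAddGroup.mk (FreeAbelianGroup.of (oneIdem G))) = 1 := by
  change BassTrace.K0.rawCoefficient (1 : G) (FreeAbelianGroup.of (oneIdem G)) = 1
  simp only [BassTrace.K0.rawCoefficient, FreeAbelianGroup.lift_apply_of]
  rw [classCoefficient_eq, classSum_one]
  change (Matrix.trace (1 : Matrix (Fin 1) (Fin 1) (MonoidAlgebra ℂ G))).coeff 1 = 1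
  rw [Matrix.trace_one, Fintype.card_fin, Nat.cast_one, MonoidAlgebra.coeff_one_one]

theorem range_traceK0 (hC : WeakCrux.{u}) (hG : TorsionFree G) :
    Set.range (traceK0 (G := G)) = Set.range (fun z : ℤ => (z : ℂ)) := by
  apply Set.Subset.antisymm
  · rintro _ ⟨y, rfl⟩
    refine ⟨augmentationRank y, ?_⟩
    rw [traceK0_eq hC hG]
    rfl
  · rintro _ ⟨z, rfl⟩
    refine ⟨z • QuotientAddGroup.mk (FreeAbelianGroup.of (oneIdem G)), ?_⟩
    rw [map_zsmul, traceK0_oneIdem]
    simp

/-- idempotents of `ℂ[G]`, `G` torsion free -/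
theorem idempotent_complex (hC : WeakCrux.{u}) (hG : TorsionFree G) (e : MonoidAlgebra ℂ G)
    (he : e * e = e) : e = 0 ∨ e = 1 := by
  let M : Matrix (Fin 1) (Fin 1) (MonoidAlgebra ℂ G) := Matrix.of fun _ _ => e
  have hM : M * M = M := by
    ext i j : 1
    rw [Matrix.mul_apply, Fin.sum_univ_one]
    exact he
  have htr : Matrix.trace M = e := by
    rw [Matrix.trace, Fin.sum_univ_one]
    rfl
  have h1 := coeff_one_eq_augmentation hC hG M hM
  rw [htr] at h1
  have h2 : augmentation e * augmentation e = augmentation e := by rw [← map_mul, he]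
  have h3 : augmentation e = 0 ∨ augmentation e = 1 := by
    have : augmentation e * (augmentation e - 1) = 0 := by rw [mul_sub, h2, mul_one, sub_self]
    rcases mul_eq_zero.1 this with h | h
    · exact Or.inl h
    · exact Or.inr (sub_eq_zero.1 h)
  rcases h3 with h | h
  · left
    exact kaplansky_zero e he (by rw [h1, h])
  · right
    have h4 : (1 - e) * (1 - e) = 1 - e := by
      rw [mul_sub, sub_mul, sub_mul, he]; simp
    have h5 : (1 - e).coeff 1 = 0 := by
      rw [MonoidAlgebra.coeff_sub, Finsupp.sub_apply, MonoidAlgebra.coeff_one_one, h1, h, sub_self]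
    exact (sub_eq_zero.1 (kaplansky_zero (1 - e) h4 h5)).symm

/-- idempotents of `R[G]`, `G` torsion free, `R` a domain of characteristic zero -/
theorem idempotent_domain (hC : WeakCrux.{u}) (hG : TorsionFree G) (R : Type v) [CommRing R]
    [IsDomain R] [CharZero R] (e : MonoidAlgebra R G) (he : e ^ 2 = e) : e = 0 ∨ e = 1 := by
  classical
  obtain ⟨A, _, ι, φ, hι, hφ, hs⟩ := exists_embedding (e.coeff.support.image e.coeff)
  have hιinj : Function.Injective (MonoidAlgebra.mapRingHom G ι) :=
    MonoidAlgebra.map_injective (ι : A →+ R) hι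
  have hφinj : Function.Injective (MonoidAlgebra.mapRingHom G φ) :=
    MonoidAlgebra.map_injective (φ : A →+ ℂ) hφ
  have hmem : e ∈ Set.range (MonoidAlgebra.map (M := G) (ι : A →+ R)) := by
    rw [MonoidAlgebra.range_map]
    intro g
    by_cases hg : g ∈ e.coeff.support
    · exact hs _ (Finset.mem_image_of_mem _ hg)
    · rw [Finsupp.notMem_support_iff.1 hg]
      exact ⟨0, map_zero _⟩
  obtain ⟨e', he'⟩ := hmem
  have he'' : MonoidAlgebra.mapRingHom G ι e' = e := he'
  have hidem : e' * e' = e' := by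
    apply hιinj
    rw [map_mul, he'', ← pow_two, he]
  have hidemC : MonoidAlgebra.mapRingHom G φ e' * MonoidAlgebra.mapRingHom G φ e'
      = MonoidAlgebra.mapRingHom G φ e' := by rw [← map_mul, hidem]
  rcases idempotent_complex hC hG _ hidemC with h | h
  · left
    have : e' = 0 := hφinj (by rw [h, map_zero])
    rw [← he'', this, map_zero]
  · right
    have : e' = 1 := hφinj (by rw [h, map_one])
    rw [← he'', this, map_one]

/-- **`WeakCrux → S0246`.** -/
theorem s0246_of_weakCrux (hC : WeakCrux.{u}) (G : Type u) [Group G] (hG : TorsionFree G) :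
    ((∀ (q : ℕ), 1 ≤ q →
      ∀ e : Matrix (Fin q) (Fin q) (MonoidAlgebra ℂ G), e ^ 2 = e →
        matrixTrace e = ((augmentedMatrix e).rank : ℂ)) ∧
      traceK0 (G := G) = (Int.castAddHom ℂ).comp augmentationRank ∧
      Set.range (traceK0 (G := G)) = Set.range (fun z : ℤ => (z : ℂ))) ∧
    (∀ (R : Type v) [CommRing R] [IsDomain R] [CharZero R]
      (e : MonoidAlgebra R G), e ^ 2 = e → e = 0 ∨ e = 1) :=
  ⟨⟨fun _ _ e he => matrixTrace_eq_rank hC hG e (by rw [← pow_two, he]),
    traceK0_eq hC hG, range_traceK0 hC hG⟩,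
    fun R _ _ _ e he => idempotent_domain hC hG R e he⟩

/-- **`Crux → S0246`.** -/
theorem s0246_of_crux (hC : Crux.{u}) (G : Type u) [Group G] (hG : TorsionFree G) :
    ((∀ (q : ℕ), 1 ≤ q →
      ∀ e : Matrix (Fin q) (Fin q) (MonoidAlgebra ℂ G), e ^ 2 = e →
        matrixTrace e = ((augmentedMatrix e).rank : ℂ)) ∧
      traceK0 (G := G) = (Int.castAddHom ℂ).comp augmentationRank ∧
      Set.range (traceK0 (G := G)) = Set.range (fun z : ℤ => (z : ℂ))) ∧
    (∀ (R : Type v) [CommRing R] [IsDomain R] [CharZero R]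
      (e : MonoidAlgebra R G), e ^ 2 = e → e = 0 ∨ e = 1) :=
  s0246_of_weakCrux (weakCrux_of_crux hC) G hG

end Claimed.Agent.R122
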